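import Vale.Agent.P274.Center

open Metric Set

namespace Vale.Agent.Results.P274.CocompactCenter

/-- For a cocompact action by holomorphic maps on a bounded connected open subset of `ℂ^N`, the
elements centralized by a finite-index subgroup act trivially, and a virtually nilpotent group
forces `N = 0`. -/
theorem result (N : ℕ) (U : Set (Fin N → ℂ)) (hUo : IsOpen U) (hUc : IsConnected U)
    (hUb : Bornology.IsBounded U)
    (Γ : Type) [Group Γ] (act : Γ → (Fin N → ℂ) → (Fin N → ℂ))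
    (hone : ∀ p ∈ U, act 1 p = p)
    (hmul : ∀ a b : Γ, ∀ p ∈ U, act (a * b) p = act a (act b p))
    (hmap : ∀ γ, MapsTo (act γ) U U) (hd : ∀ γ, DifferentiableOn ℂ (act γ) U)
    (hcc : ∃ K : Set (Fin N → ℂ), IsCompact K ∧ K ⊆ U ∧ ∀ p ∈ U, ∃ γ, act γ p ∈ K) :
    (∀ γ : Γ, (Subgroup.centralizer {γ}).FiniteIndex → ∀ p ∈ U, act γ p = p) ∧
      ((∃ H : Subgroup Γ, H.FiniteIndex ∧ Group.IsNilpotent H) → N = 0) := by
  obtain ⟨K, hK, hKU, hcov⟩ := hcc
  -- translates of a compact set for a finite-index subgroup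
  have sub : ∀ H : Subgroup Γ, H.FiniteIndex → ∃ K' : Set (Fin N → ℂ), IsCompact K' ∧ K' ⊆ U ∧
      ∀ p ∈ U, ∃ τ ∈ (H : Set Γ), ∃ x ∈ K', act τ x = p := by
    intro H hH
    have := hH
    have : Finite (Γ ⧸ H) := H.finite_quotient_of_finiteIndex
    refine ⟨⋃ t : Γ ⧸ H, act (Quotient.out t)⁻¹ '' K, ?_, ?_, ?_⟩
    · exact isCompact_iUnion fun t => hK.image_of_continuousOn ((hd _).continuousOn.mono hKU)
    · exact iUnion_subset fun t => (image_mono hKU).trans (hmap _).image_subset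
    · intro p hp
      obtain ⟨g, hg⟩ := hcov p hp
      set t : Γ ⧸ H := ((g : Γ) : Γ ⧸ H) with ht
      set h : Γ := (Quotient.out t)⁻¹ * g with hh
      have hH' : h ∈ H := QuotientGroup.eq.1 (QuotientGroup.out_eq' t)
      refine ⟨h⁻¹, H.inv_mem hH', act (Quotient.out t)⁻¹ (act g p),
        mem_iUnion.2 ⟨t, mem_image_of_mem _ hg⟩, ?_⟩
      rw [← hmul _ _ p hp, ← hh, ← hmul _ _ p hp, inv_mul_cancel, hone p hp]
  have triv : ∀ H : Subgroup Γ, H.FiniteIndex → ∀ γ : Γ,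
      (∀ τ ∈ H, ∀ p ∈ U, act τ (act γ p) = act γ (act τ p)) → ∀ p ∈ U, act γ p = p := by
    intro H hH γ hγ
    obtain ⟨K', hK', hK'U, hcov'⟩ := sub H hH
    exact Vale.Agent.P274.act_eq_self_of_commute hUo hUc.isPreconnected hUb hmap hd
      (H : Set Γ) hK' hK'U hcov' γ hγ
  refine ⟨fun γ hγ => triv _ hγ γ ?_, ?_⟩
  · intro τ hτ p hp
    rw [← hmul _ _ p hp, ← hmul _ _ p hp,
      show τ * γ = γ * τ from (Subgroup.mem_centralizer_singleton_iff.1 hτ)]
  rintro ⟨H, hH, hnil⟩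
  obtain ⟨n, hn⟩ := hnil.nilpotent
  have hser : ∀ m, ∀ x ∈ Subgroup.upperCentralSeries H m, ∀ p ∈ U, act (x : Γ) p = p := by
    intro m
    induction m with
    | zero =>
      intro x hx p hp
      rw [Subgroup.upperCentralSeries_zero, Subgroup.mem_bot] at hx
      subst hx; exact hone p hp
    | succ m ih =>
      intro x hx
      refine triv H hH x ?_
      intro τ hτ p hp
      have hc := ih _ (Subgroup.mem_upperCentralSeries_succ_iff.1 hx ⟨τ, hτ⟩)
      have hq : act (τ : Γ) (act (x : Γ) p) ∈ U := hmap _ (hmap _ hp)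
      have h1 := hc _ hq
      simp only [commutatorElement_def, Subgroup.coe_mul, Subgroup.coe_inv] at h1
      rw [← hmul _ _ p hp, ← hmul _ _ _ hp] at h1
      rw [← hmul _ _ p hp, ← hmul _ _ p hp, ← h1]
      congr 1
      group
  obtain ⟨K', hK', hK'U, hcov'⟩ := sub H hH
  have hUK : U ⊆ K' := by
    intro p hp
    obtain ⟨τ, hτ, x, hx, rfl⟩ := hcov' p hp
    rwa [hser n ⟨τ, hτ⟩ (by rw [hn]; trivial) x (hK'U hx)]
  have hUeq : U = K' := hUK.antisymm hK'U
  have huniv : U = univ :=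
    IsClopen.eq_univ ⟨hUeq ▸ hK'.isClosed, hUo⟩ hUc.nonempty
  by_contra hN
  obtain ⟨R, hR⟩ := hUb.exists_norm_le
  have h2 := hR (fun _ => ((|R| + 1 : ℝ) : ℂ)) (huniv ▸ mem_univ _)
  have h3 := (norm_le_pi_norm (fun _ : Fin N => ((|R| + 1 : ℝ) : ℂ))
    ⟨0, Nat.pos_of_ne_zero hN⟩).trans h2
  rw [Complex.norm_real, Real.norm_eq_abs] at h3
  linarith [le_abs_self (|R| + 1), le_abs_self R]

end Vale.Agent.Results.P274.CocompactCenter
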