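import Vale.Agent.P274.Polydisc

/-!
# P274: cocompact domains with a homogeneous model near a peak point
-/

open Metric Set Vale.Agent.P274

namespace Vale.Agent.Results.P274.PeakModel

/-- A bounded cocompact domain that coincides near a local peak boundary point with a bounded
homogeneous domain is biholomorphic to it; in particular this holds for a polydisc corner. -/
theorem result (N : ℕ) (U : Set (Fin N → ℂ)) (hUo : IsOpen U) (hUc : IsConnected U)
    (hUb : Bornology.IsBounded U)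
    (Γ : Type) [Group Γ] (act : Γ → (Fin N → ℂ) → (Fin N → ℂ))
    (hone : ∀ x ∈ U, act 1 x = x)
    (hmul : ∀ a b : Γ, ∀ x ∈ U, act (a * b) x = act a (act b x))
    (hmap : ∀ γ, MapsTo (act γ) U U) (hd : ∀ γ, DifferentiableOn ℂ (act γ) U)
    (hcc : ∃ K : Set (Fin N → ℂ), IsCompact K ∧ K ⊆ U ∧ ∀ x ∈ U, ∃ γ, act γ x ∈ K)
    (W : Set (Fin N → ℂ)) (hW : IsOpen W) :
    (∀ B : Set (Fin N → ℂ), IsOpen B → IsConnected B → Bornology.IsBounded B → Homogeneous B →
      ∀ p ∈ closure U, p ∈ W → U ∩ W = B ∩ W →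
      ∀ h : (Fin N → ℂ) → ℂ, DifferentiableOn ℂ h W → h p = 1 →
        (∀ z ∈ W, z ∈ closure U → z ≠ p → ‖h z‖ < 1) → Biholomorphic U B) ∧
      ((fun _ => 1) ∈ W → U ∩ W = ball 0 1 ∩ W → Biholomorphic U (ball (0 : Fin N → ℂ) 1)) :=
  ⟨fun B hBo hBc hBb hB p hp hpW hUB h hh hhp hpeak =>
      biholomorphic_of_peak U hUo hUc hUb Γ act hone hmul hmap hd hcc B hBo hBc hBb hB p hp W hW
        hpW hUB h hh hhp hpeak,
    fun hpW hUB => biholomorphic_polydisc U hUo hUc hUb Γ act hone hmul hmap hd hcc W hW hpW hUB⟩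

end Vale.Agent.Results.P274.PeakModel
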